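import Vale.Agent.Lib.P062.CertW.Chunk0
import Vale.Agent.Lib.P062.CertW.Chunk1
import Vale.Agent.Lib.P062.CertW.Chunk2
import Vale.Agent.Lib.P062.CertW.Chunk3
import Vale.Agent.Lib.P062.CertW.Chunk4
import Vale.Agent.Lib.P062.CertW.Chunk5
import Vale.Agent.Lib.P062.CertW.Chunk6
import Vale.Agent.Lib.P062.CertW.Chunk7
import Vale.Agent.Lib.P062.CertW.Chunk8
import Vale.Agent.Lib.P062.CertW.Chunk9
import Vale.Agent.Lib.P062.CertW.Chunk10
import Vale.Agent.Lib.P062.CertW.Chunk11
import Vale.Agent.Lib.P062.CertW.Chunk12
import Vale.Agent.Lib.P062.CertW.Chunk13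
import Vale.Agent.Lib.P062.CertW.Chunk14
import Vale.Agent.Lib.P062.CertW.Chunk15
import Vale.Agent.Lib.P062.CertW.Chunk16
import Vale.Agent.Lib.P062.CertW.Chunk17
import Vale.Agent.Lib.P062.CertW.Chunk18
import Vale.Agent.Lib.P062.CertW.Chunk19
import Vale.Agent.Lib.P062.CertW.Chunk20
import Vale.Agent.Lib.P062.CertW.Chunk21
import Vale.Agent.Lib.P062.CertW.Chunk22
import Vale.Agent.Lib.P062.CertW.Chunk23
import Vale.Agent.Lib.P062.CertW.Chunk24
import Vale.Agent.Lib.P062.CertW.Chunk25
import Vale.Agent.Lib.P062.CertW.Chunk26
import Vale.Agent.Lib.P062.CertW.Chunk27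
import Vale.Agent.Lib.P062.CertW.Chunk28
import Vale.Agent.Lib.P062.CertW.Chunk29
import Vale.Agent.Lib.P062.CertW.Chunk30
import Vale.Agent.Lib.P062.CertW.Chunk31
import Vale.Agent.Lib.P062.CertW.Chunk32
import Vale.Agent.Lib.P062.CertW.Chunk33
import Vale.Agent.Lib.P062.CertW.Chunk34
import Vale.Agent.Lib.P062.CertW.Chunk35
import Vale.Agent.Lib.P062.CertW.Chunk36
import Vale.Agent.Lib.P062.CertW.Chunk37
import Vale.Agent.Lib.P062.CertW.Chunk38
import Vale.Agent.Lib.P062.CertW.Chunk39
import Vale.Agent.Lib.P062.CertW.Chunk40
import Vale.Agent.Lib.P062.CertW.Chunk41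
import Vale.Agent.Lib.P062.CertW.Chunk42
import Vale.Agent.Lib.P062.CertW.Chunk43
import Vale.Agent.Lib.P062.CertW.Chunk44
import Vale.Agent.Lib.P062.CertW.Chunk45
import Vale.Agent.Lib.P062.CertW.Chunk46
import Vale.Agent.Lib.P062.CertW.Chunk47
import Vale.Agent.Lib.P062.CertW.Chunk48
import Vale.Agent.Lib.P062.CertW.Chunk49
import Vale.Agent.Lib.P062.CertW.Chunk50
import Vale.Agent.Lib.P062.CertW.Chunk51
import Vale.Agent.Lib.P062.CertW.Chunk52
import Vale.Agent.Lib.P062.CertW.Chunk53
import Vale.Agent.Lib.P062.CertW.Chunk54
import Vale.Agent.Lib.P062.CertW.Chunk55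
import Vale.Agent.Lib.P062.CertW.Chunk56
import Vale.Agent.Lib.P062.CertW.Chunk57
import Vale.Agent.Lib.P062.CertW.Chunk58
import Vale.Agent.Lib.P062.CertW.Chunk59
import Vale.Agent.Lib.P062.CertW.Chunk60
import Vale.Agent.Lib.P062.CertW.Chunk61
import Vale.Agent.Lib.P062.CertW.Chunk62
import Vale.Agent.Lib.P062.CertW.Chunk63
import Vale.Agent.Lib.P062.CertW.Chunk64
import Vale.Agent.Lib.P062.CertW.Chunk65
import Vale.Agent.Lib.P062.CertW.Chunk66
import Vale.Agent.Lib.P062.CertW.Chunk67
import Vale.Agent.Lib.P062.CertW.Chunk68
import Vale.Agent.Lib.P062.CertW.Chunk69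
import Vale.Agent.Lib.P062.CertW.Chunk70
import Vale.Agent.Lib.P062.CertW.Chunk71
import Vale.Agent.Lib.P062.CertW.Chunk72
import Vale.Agent.Lib.P062.CertW.Chunk73
import Vale.Agent.Lib.P062.CertW.Chunk74
import Vale.Agent.Lib.P062.CertW.Chunk75
import Vale.Agent.Lib.P062.CertW.Chunk76
import Vale.Agent.Lib.P062.CertW.Chunk77
import Vale.Agent.Lib.P062.CertW.Chunk78
import Vale.Agent.Lib.P062.CertW.Chunk79
import Vale.Agent.Lib.P062.CertW.Chunk80
import Vale.Agent.Lib.P062.CertW.Chunk81
import Vale.Agent.Lib.P062.CertW.Chunk82
import Vale.Agent.Lib.P062.CertW.Chunk83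
import Vale.Agent.Lib.P062.CertW.Chunk84
import Vale.Agent.Lib.P062.CertW.Chunk85
import Vale.Agent.Lib.P062.CertW.Chunk86
import Vale.Agent.Lib.P062.CertW.Chunk87
import Vale.Agent.Lib.P062.CertW.Chunk88
import Vale.Agent.Lib.P062.CertW.Chunk89
import Vale.Agent.Lib.P062.CertW.Chunk90
import Vale.Agent.Lib.P062.CertW.Chunk91
import Vale.Agent.Lib.P062.CertW.Chunk92
import Vale.Agent.Lib.P062.CertW.Chunk93
import Vale.Agent.Lib.P062.CertW.Chunk94
import Vale.Agent.Lib.P062.CertW.Chunk95
import Vale.Agent.Lib.P062.CertW.Chunk96
import Vale.Agent.Lib.P062.CertW.Chunk97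
import Vale.Agent.Lib.P062.CertW.Chunk98
import Vale.Agent.Lib.P062.CertW.Chunk99
import Vale.Agent.Lib.P062.CertW.Chunk100
import Vale.Agent.Lib.P062.CertW.Chunk101
import Vale.Agent.Lib.P062.CertW.Chunk102
import Vale.Agent.Lib.P062.CertW.Chunk103
import Vale.Agent.Lib.P062.CertW.Chunk104
import Vale.Agent.Lib.P062.CertW.Chunk105
import Vale.Agent.Lib.P062.Cert.Sound4

namespace Vale.Agent.Lib.P062.CertW

theorem valid0 : ∀ i, i < 270 → (senv.get i).Valid := by
  have h := chkAll_sound senv trees0 0 (fun i hi => absurd hi (Nat.not_lt_zero i)) ok0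
  rwa [len0] at h

theorem valid1 : ∀ i, i < 476 → (senv.get i).Valid := by
  have h := chkAll_sound senv trees1 270 valid0 ok1
  rwa [len1] at h

theorem valid2 : ∀ i, i < 664 → (senv.get i).Valid := by
  have h := chkAll_sound senv trees2 476 valid1 ok2
  rwa [len2] at h

theorem valid3 : ∀ i, i < 800 → (senv.get i).Valid := by
  have h := chkAll_sound senv trees3 664 valid2 ok3
  rwa [len3] at h

theorem valid4 : ∀ i, i < 895 → (senv.get i).Valid := by
  have h := chkAll_sound senv trees4 800 valid3 ok4
  rwa [len4] at h

theorem valid5 : ∀ i, i < 1012 → (senv.get i).Valid := by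
  have h := chkAll_sound senv trees5 895 valid4 ok5
  rwa [len5] at h

theorem valid6 : ∀ i, i < 1112 → (senv.get i).Valid := by
  have h := chkAll_sound senv trees6 1012 valid5 ok6
  rwa [len6] at h

theorem valid7 : ∀ i, i < 1211 → (senv.get i).Valid := by
  have h := chkAll_sound senv trees7 1112 valid6 ok7
  rwa [len7] at h

theorem valid8 : ∀ i, i < 1319 → (senv.get i).Valid := by
  have h := chkAll_sound senv trees8 1211 valid7 ok8
  rwa [len8] at h

theorem valid9 : ∀ i, i < 1474 → (senv.get i).Valid := by
  have h := chkAll_sound senv trees9 1319 valid8 ok9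
  rwa [len9] at h

theorem valid10 : ∀ i, i < 1649 → (senv.get i).Valid := by
  have h := chkAll_sound senv trees10 1474 valid9 ok10
  rwa [len10] at h

theorem valid11 : ∀ i, i < 1797 → (senv.get i).Valid := by
  have h := chkAll_sound senv trees11 1649 valid10 ok11
  rwa [len11] at h

theorem valid12 : ∀ i, i < 1885 → (senv.get i).Valid := by
  have h := chkAll_sound senv trees12 1797 valid11 ok12
  rwa [len12] at h

theorem valid13 : ∀ i, i < 1996 → (senv.get i).Valid := by
  have h := chkAll_sound senv trees13 1885 valid12 ok13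
  rwa [len13] at h

theorem valid14 : ∀ i, i < 2049 → (senv.get i).Valid := by
  have h := chkAll_sound senv trees14 1996 valid13 ok14
  rwa [len14] at h

theorem valid15 : ∀ i, i < 2214 → (senv.get i).Valid := by
  have h := chkAll_sound senv trees15 2049 valid14 ok15
  rwa [len15] at h

theorem valid16 : ∀ i, i < 2272 → (senv.get i).Valid := by
  have h := chkAll_sound senv trees16 2214 valid15 ok16
  rwa [len16] at h

theorem valid17 : ∀ i, i < 2368 → (senv.get i).Valid := by
  have h := chkAll_sound senv trees17 2272 valid16 ok17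
  rwa [len17] at h

theorem valid18 : ∀ i, i < 2546 → (senv.get i).Valid := by
  have h := chkAll_sound senv trees18 2368 valid17 ok18
  rwa [len18] at h

theorem valid19 : ∀ i, i < 2549 → (senv.get i).Valid := by
  have h := chkAll_sound senv trees19 2546 valid18 ok19
  rwa [len19] at h

theorem valid20 : ∀ i, i < 2775 → (senv.get i).Valid := by
  have h := chkAll_sound senv trees20 2549 valid19 ok20
  rwa [len20] at h

theorem valid21 : ∀ i, i < 2779 → (senv.get i).Valid := by
  have h := chkAll_sound senv trees21 2775 valid20 ok21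
  rwa [len21] at h

theorem valid22 : ∀ i, i < 3005 → (senv.get i).Valid := by
  have h := chkAll_sound senv trees22 2779 valid21 ok22
  rwa [len22] at h

theorem valid23 : ∀ i, i < 3009 → (senv.get i).Valid := by
  have h := chkAll_sound senv trees23 3005 valid22 ok23
  rwa [len23] at h

theorem valid24 : ∀ i, i < 3235 → (senv.get i).Valid := by
  have h := chkAll_sound senv trees24 3009 valid23 ok24
  rwa [len24] at h

theorem valid25 : ∀ i, i < 3239 → (senv.get i).Valid := by
  have h := chkAll_sound senv trees25 3235 valid24 ok25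
  rwa [len25] at h

theorem valid26 : ∀ i, i < 3534 → (senv.get i).Valid := by
  have h := chkAll_sound senv trees26 3239 valid25 ok26
  rwa [len26] at h

theorem valid27 : ∀ i, i < 3804 → (senv.get i).Valid := by
  have h := chkAll_sound senv trees27 3534 valid26 ok27
  rwa [len27] at h

theorem valid28 : ∀ i, i < 4010 → (senv.get i).Valid := by
  have h := chkAll_sound senv trees28 3804 valid27 ok28
  rwa [len28] at h

theorem valid29 : ∀ i, i < 4171 → (senv.get i).Valid := by
  have h := chkAll_sound senv trees29 4010 valid28 ok29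
  rwa [len29] at h

theorem valid30 : ∀ i, i < 4367 → (senv.get i).Valid := by
  have h := chkAll_sound senv trees30 4171 valid29 ok30
  rwa [len30] at h

theorem valid31 : ∀ i, i < 4498 → (senv.get i).Valid := by
  have h := chkAll_sound senv trees31 4367 valid30 ok31
  rwa [len31] at h

theorem valid32 : ∀ i, i < 4785 → (senv.get i).Valid := by
  have h := chkAll_sound senv trees32 4498 valid31 ok32
  rwa [len32] at h

theorem valid33 : ∀ i, i < 4907 → (senv.get i).Valid := by
  have h := chkAll_sound senv trees33 4785 valid32 ok33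
  rwa [len33] at h

theorem valid34 : ∀ i, i < 4910 → (senv.get i).Valid := by
  have h := chkAll_sound senv trees34 4907 valid33 ok34
  rwa [len34] at h

theorem valid35 : ∀ i, i < 4920 → (senv.get i).Valid := by
  have h := chkAll_sound senv trees35 4910 valid34 ok35
  rwa [len35] at h

theorem valid36 : ∀ i, i < 5151 → (senv.get i).Valid := by
  have h := chkAll_sound senv trees36 4920 valid35 ok36
  rwa [len36] at h

theorem valid37 : ∀ i, i < 5277 → (senv.get i).Valid := by
  have h := chkAll_sound senv trees37 5151 valid36 ok37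
  rwa [len37] at h

theorem valid38 : ∀ i, i < 5560 → (senv.get i).Valid := by
  have h := chkAll_sound senv trees38 5277 valid37 ok38
  rwa [len38] at h

theorem valid39 : ∀ i, i < 5654 → (senv.get i).Valid := by
  have h := chkAll_sound senv trees39 5560 valid38 ok39
  rwa [len39] at h

theorem valid40 : ∀ i, i < 5658 → (senv.get i).Valid := by
  have h := chkAll_sound senv trees40 5654 valid39 ok40
  rwa [len40] at h

theorem valid41 : ∀ i, i < 5665 → (senv.get i).Valid := by
  have h := chkAll_sound senv trees41 5658 valid40 ok41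
  rwa [len41] at h

theorem valid42 : ∀ i, i < 5667 → (senv.get i).Valid := by
  have h := chkAll_sound senv trees42 5665 valid41 ok42
  rwa [len42] at h

theorem valid43 : ∀ i, i < 5670 → (senv.get i).Valid := by
  have h := chkAll_sound senv trees43 5667 valid42 ok43
  rwa [len43] at h

theorem valid44 : ∀ i, i < 5676 → (senv.get i).Valid := by
  have h := chkAll_sound senv trees44 5670 valid43 ok44
  rwa [len44] at h

theorem valid45 : ∀ i, i < 5680 → (senv.get i).Valid := by
  have h := chkAll_sound senv trees45 5676 valid44 ok45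
  rwa [len45] at h

theorem valid46 : ∀ i, i < 5975 → (senv.get i).Valid := by
  have h := chkAll_sound senv trees46 5680 valid45 ok46
  rwa [len46] at h

theorem valid47 : ∀ i, i < 6245 → (senv.get i).Valid := by
  have h := chkAll_sound senv trees47 5975 valid46 ok47
  rwa [len47] at h

theorem valid48 : ∀ i, i < 6451 → (senv.get i).Valid := by
  have h := chkAll_sound senv trees48 6245 valid47 ok48
  rwa [len48] at h

theorem valid49 : ∀ i, i < 6612 → (senv.get i).Valid := by
  have h := chkAll_sound senv trees49 6451 valid48 ok49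
  rwa [len49] at h

theorem valid50 : ∀ i, i < 6808 → (senv.get i).Valid := by
  have h := chkAll_sound senv trees50 6612 valid49 ok50
  rwa [len50] at h

theorem valid51 : ∀ i, i < 6939 → (senv.get i).Valid := by
  have h := chkAll_sound senv trees51 6808 valid50 ok51
  rwa [len51] at h

theorem valid52 : ∀ i, i < 7226 → (senv.get i).Valid := by
  have h := chkAll_sound senv trees52 6939 valid51 ok52
  rwa [len52] at h

theorem valid53 : ∀ i, i < 7348 → (senv.get i).Valid := by
  have h := chkAll_sound senv trees53 7226 valid52 ok53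
  rwa [len53] at h

theorem valid54 : ∀ i, i < 7351 → (senv.get i).Valid := by
  have h := chkAll_sound senv trees54 7348 valid53 ok54
  rwa [len54] at h

theorem valid55 : ∀ i, i < 7361 → (senv.get i).Valid := by
  have h := chkAll_sound senv trees55 7351 valid54 ok55
  rwa [len55] at h

theorem valid56 : ∀ i, i < 7592 → (senv.get i).Valid := by
  have h := chkAll_sound senv trees56 7361 valid55 ok56
  rwa [len56] at h

theorem valid57 : ∀ i, i < 7718 → (senv.get i).Valid := by
  have h := chkAll_sound senv trees57 7592 valid56 ok57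
  rwa [len57] at h

theorem valid58 : ∀ i, i < 8001 → (senv.get i).Valid := by
  have h := chkAll_sound senv trees58 7718 valid57 ok58
  rwa [len58] at h

theorem valid59 : ∀ i, i < 8095 → (senv.get i).Valid := by
  have h := chkAll_sound senv trees59 8001 valid58 ok59
  rwa [len59] at h

theorem valid60 : ∀ i, i < 8099 → (senv.get i).Valid := by
  have h := chkAll_sound senv trees60 8095 valid59 ok60
  rwa [len60] at h

theorem valid61 : ∀ i, i < 8106 → (senv.get i).Valid := by
  have h := chkAll_sound senv trees61 8099 valid60 ok61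
  rwa [len61] at h

theorem valid62 : ∀ i, i < 8108 → (senv.get i).Valid := by
  have h := chkAll_sound senv trees62 8106 valid61 ok62
  rwa [len62] at h

theorem valid63 : ∀ i, i < 8111 → (senv.get i).Valid := by
  have h := chkAll_sound senv trees63 8108 valid62 ok63
  rwa [len63] at h

theorem valid64 : ∀ i, i < 8117 → (senv.get i).Valid := by
  have h := chkAll_sound senv trees64 8111 valid63 ok64
  rwa [len64] at h

theorem valid65 : ∀ i, i < 8121 → (senv.get i).Valid := by
  have h := chkAll_sound senv trees65 8117 valid64 ok65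
  rwa [len65] at h

theorem valid66 : ∀ i, i < 8416 → (senv.get i).Valid := by
  have h := chkAll_sound senv trees66 8121 valid65 ok66
  rwa [len66] at h

theorem valid67 : ∀ i, i < 8686 → (senv.get i).Valid := by
  have h := chkAll_sound senv trees67 8416 valid66 ok67
  rwa [len67] at h

theorem valid68 : ∀ i, i < 8892 → (senv.get i).Valid := by
  have h := chkAll_sound senv trees68 8686 valid67 ok68
  rwa [len68] at h

theorem valid69 : ∀ i, i < 9053 → (senv.get i).Valid := by
  have h := chkAll_sound senv trees69 8892 valid68 ok69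
  rwa [len69] at h

theorem valid70 : ∀ i, i < 9249 → (senv.get i).Valid := by
  have h := chkAll_sound senv trees70 9053 valid69 ok70
  rwa [len70] at h

theorem valid71 : ∀ i, i < 9380 → (senv.get i).Valid := by
  have h := chkAll_sound senv trees71 9249 valid70 ok71
  rwa [len71] at h

theorem valid72 : ∀ i, i < 9667 → (senv.get i).Valid := by
  have h := chkAll_sound senv trees72 9380 valid71 ok72
  rwa [len72] at h

theorem valid73 : ∀ i, i < 9789 → (senv.get i).Valid := by
  have h := chkAll_sound senv trees73 9667 valid72 ok73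
  rwa [len73] at h

theorem valid74 : ∀ i, i < 9792 → (senv.get i).Valid := by
  have h := chkAll_sound senv trees74 9789 valid73 ok74
  rwa [len74] at h

theorem valid75 : ∀ i, i < 9802 → (senv.get i).Valid := by
  have h := chkAll_sound senv trees75 9792 valid74 ok75
  rwa [len75] at h

theorem valid76 : ∀ i, i < 10033 → (senv.get i).Valid := by
  have h := chkAll_sound senv trees76 9802 valid75 ok76
  rwa [len76] at h

theorem valid77 : ∀ i, i < 10159 → (senv.get i).Valid := by
  have h := chkAll_sound senv trees77 10033 valid76 ok77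
  rwa [len77] at h

theorem valid78 : ∀ i, i < 10442 → (senv.get i).Valid := by
  have h := chkAll_sound senv trees78 10159 valid77 ok78
  rwa [len78] at h

theorem valid79 : ∀ i, i < 10536 → (senv.get i).Valid := by
  have h := chkAll_sound senv trees79 10442 valid78 ok79
  rwa [len79] at h

theorem valid80 : ∀ i, i < 10540 → (senv.get i).Valid := by
  have h := chkAll_sound senv trees80 10536 valid79 ok80
  rwa [len80] at h

theorem valid81 : ∀ i, i < 10547 → (senv.get i).Valid := by
  have h := chkAll_sound senv trees81 10540 valid80 ok81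
  rwa [len81] at h

theorem valid82 : ∀ i, i < 10549 → (senv.get i).Valid := by
  have h := chkAll_sound senv trees82 10547 valid81 ok82
  rwa [len82] at h

theorem valid83 : ∀ i, i < 10552 → (senv.get i).Valid := by
  have h := chkAll_sound senv trees83 10549 valid82 ok83
  rwa [len83] at h

theorem valid84 : ∀ i, i < 10558 → (senv.get i).Valid := by
  have h := chkAll_sound senv trees84 10552 valid83 ok84
  rwa [len84] at h

theorem valid85 : ∀ i, i < 10562 → (senv.get i).Valid := by
  have h := chkAll_sound senv trees85 10558 valid84 ok85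
  rwa [len85] at h

theorem valid86 : ∀ i, i < 10857 → (senv.get i).Valid := by
  have h := chkAll_sound senv trees86 10562 valid85 ok86
  rwa [len86] at h

theorem valid87 : ∀ i, i < 11127 → (senv.get i).Valid := by
  have h := chkAll_sound senv trees87 10857 valid86 ok87
  rwa [len87] at h

theorem valid88 : ∀ i, i < 11333 → (senv.get i).Valid := by
  have h := chkAll_sound senv trees88 11127 valid87 ok88
  rwa [len88] at h

theorem valid89 : ∀ i, i < 11494 → (senv.get i).Valid := by
  have h := chkAll_sound senv trees89 11333 valid88 ok89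
  rwa [len89] at h

theorem valid90 : ∀ i, i < 11690 → (senv.get i).Valid := by
  have h := chkAll_sound senv trees90 11494 valid89 ok90
  rwa [len90] at h

theorem valid91 : ∀ i, i < 11821 → (senv.get i).Valid := by
  have h := chkAll_sound senv trees91 11690 valid90 ok91
  rwa [len91] at h

theorem valid92 : ∀ i, i < 12108 → (senv.get i).Valid := by
  have h := chkAll_sound senv trees92 11821 valid91 ok92
  rwa [len92] at h

theorem valid93 : ∀ i, i < 12230 → (senv.get i).Valid := by
  have h := chkAll_sound senv trees93 12108 valid92 ok93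
  rwa [len93] at h

theorem valid94 : ∀ i, i < 12233 → (senv.get i).Valid := by
  have h := chkAll_sound senv trees94 12230 valid93 ok94
  rwa [len94] at h

theorem valid95 : ∀ i, i < 12243 → (senv.get i).Valid := by
  have h := chkAll_sound senv trees95 12233 valid94 ok95
  rwa [len95] at h

theorem valid96 : ∀ i, i < 12474 → (senv.get i).Valid := by
  have h := chkAll_sound senv trees96 12243 valid95 ok96
  rwa [len96] at h

theorem valid97 : ∀ i, i < 12600 → (senv.get i).Valid := by
  have h := chkAll_sound senv trees97 12474 valid96 ok97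
  rwa [len97] at h

theorem valid98 : ∀ i, i < 12883 → (senv.get i).Valid := by
  have h := chkAll_sound senv trees98 12600 valid97 ok98
  rwa [len98] at h

theorem valid99 : ∀ i, i < 12977 → (senv.get i).Valid := by
  have h := chkAll_sound senv trees99 12883 valid98 ok99
  rwa [len99] at h

theorem valid100 : ∀ i, i < 12981 → (senv.get i).Valid := by
  have h := chkAll_sound senv trees100 12977 valid99 ok100
  rwa [len100] at h

theorem valid101 : ∀ i, i < 12988 → (senv.get i).Valid := by
  have h := chkAll_sound senv trees101 12981 valid100 ok101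
  rwa [len101] at h

theorem valid102 : ∀ i, i < 12990 → (senv.get i).Valid := by
  have h := chkAll_sound senv trees102 12988 valid101 ok102
  rwa [len102] at h

theorem valid103 : ∀ i, i < 12993 → (senv.get i).Valid := by
  have h := chkAll_sound senv trees103 12990 valid102 ok103
  rwa [len103] at h

theorem valid104 : ∀ i, i < 12999 → (senv.get i).Valid := by
  have h := chkAll_sound senv trees104 12993 valid103 ok104
  rwa [len104] at h

theorem valid105 : ∀ i, i < 13003 → (senv.get i).Valid := by
  have h := chkAll_sound senv trees105 12999 valid104 ok105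
  rwa [len105] at h

/-- The indices of the root lemmas after the first one. -/
def rootRest : List ℕ := [799, 1331, 1796, 2246, 1923, 1108, 596, 678, 1032, 1458, 1762, 1903, 2265, 2318, 353, 475, 733, 739, 883, 971, 1011, 1209, 1318, 1560, 1648, 1843, 1890, 2043, 2128, 2235, 2314, 2548, 2778, 3008, 3238, 5679, 8120, 10561, 13002]

theorem root_ok : chkRoot senv 13003 (cbit 528) 0 158 rootRest = true := by decide +kernel

/-- Maker, owning the origin and to move, wins against every first reply of Breaker. -/
theorem maker_wins_reply (b : Cell) (hb0 : b ≠ (0, 0)) : MakerWinsFrom {(0, 0)} {b} :=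
  maker_wins_of_root0 senv 13003 158 rootRest valid105 root_ok b hb0

/-- Maker wins the Snaky game on the empty board. -/
theorem maker_wins : MakerWinsFrom (∅ : Finset Cell) ∅ :=
  maker_wins_empty_of_root0 senv 13003 158 rootRest valid105 root_ok

end Vale.Agent.Lib.P062.CertW
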